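import Vale.Agent.P084.Bdl.B5

/-!
Tingley's problem: every surjective isometry between the unit spheres of two real normed spaces is
the restriction of a linear isometry.
-/

namespace Vale.Agent.Results.P084.Tingley

theorem result {X : Type*} [NormedAddCommGroup X] [NormedSpace ℝ X]
    {Y : Type*} [NormedAddCommGroup Y] [NormedSpace ℝ Y]
    (f : Metric.sphere (0 : X) 1 → Metric.sphere (0 : Y) 1) (hf : Isometry f)
    (hs : Function.Surjective f) :
    ∃ T : X ≃ₗᵢ[ℝ] Y, ∀ x : Metric.sphere (0 : X) 1, T (x : X) = (f x : Y) :=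
  Vale.Agent.P084.mazurUlam f hf hs

end Vale.Agent.Results.P084.Tingley
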